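import Vale.Agent.P146.H632.LamB

/-!
P146, lower half (LREV), module M3: general facts on Gaussian integrals used in the evaluation of
the first order tilt: Cauchy-Schwarz for three factors, quadratic forms against a function, fourth
moments.
-/

open Finset Matrix MeasureTheory ProbabilityTheory

set_option linter.unusedSectionVars false

namespace Vale.Agent.P146.U.H379

open Vale.Agent.P157.Lv Vale.Agent.P146.H546 Vale.Agent.P146.H632

variable {τ : Type} [Fintype τ] [DecidableEq τ]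

/-- Cauchy-Schwarz -/
lemma cs {f g : (τ → ℝ) → ℝ} (hf : EG f) (hg : EG g) :
    (∫ z, f z * g z ∂(gI τ)) ^ 2 ≤ (∫ z, f z ^ 2 ∂(gI τ)) * ∫ z, g z ^ 2 ∂(gI τ) := by
  rw [← inner_el hf hg, ← norm_el_sq hf, ← norm_el_sq hg, ← mul_pow]
  exact sq_le_sq' (by
    have := neg_le_of_abs_le (abs_real_inner_le_norm (el f) (el g))
    linarith) (real_inner_le_norm _ _)

omit [DecidableEq τ] in
lemma eg_sqrt {f : (τ → ℝ) → ℝ} (hf : EG f) : EG fun z => √(f z) := by
  refine (hf.abs.add (EG.const 1)).mono hf.meas.sqrt fun z => ?_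
  rw [abs_of_nonneg (Real.sqrt_nonneg _), abs_of_nonneg (by positivity)]
  refine Real.sqrt_le_iff.2 ⟨by positivity, ?_⟩
  have := le_abs_self (f z)
  nlinarith [abs_nonneg (f z)]

/-- three factors -/
lemma hold3 {f g h : (τ → ℝ) → ℝ} (hf : EG f) (hg : EG g) (hh : EG h) {a b c : ℝ} (ha : 0 ≤ a)
    (hb : 0 ≤ b) (hc : 0 ≤ c) (h1 : ∫ z, f z ^ 2 ∂(gI τ) ≤ a ^ 2)
    (h2 : ∫ z, g z ^ 4 ∂(gI τ) ≤ b ^ 4) (h3 : ∫ z, h z ^ 4 ∂(gI τ) ≤ c ^ 4) :
    |∫ z, f z * (g z * h z) ∂(gI τ)| ≤ a * (b * c) := by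
  have k1 := cs hf (hg.mul hh)
  have k2 := cs (hg.pow 2) (hh.pow 2)
  have e2 : ∀ z, g z ^ 2 * h z ^ 2 = (g z * h z) ^ 2 := fun z => by ring
  have e3 : ∀ z, (g z ^ 2) ^ 2 = g z ^ 4 := fun z => by ring
  have e4 : ∀ z, (h z ^ 2) ^ 2 = h z ^ 4 := fun z => by ring
  simp only [e2, e3, e4] at k2
  have n0 : 0 ≤ ∫ z, (g z * h z) ^ 2 ∂(gI τ) := integral_nonneg fun _ => sq_nonneg _
  have n1 : 0 ≤ ∫ z, f z ^ 2 ∂(gI τ) := integral_nonneg fun _ => sq_nonneg _
  have n3 : 0 ≤ ∫ z, h z ^ 4 ∂(gI τ) := integral_nonneg fun z => by positivity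
  have k3 : (∫ z, (g z * h z) ^ 2 ∂(gI τ)) ≤ (b * c) ^ 2 := by
    refine le_of_sq_le_sq ?_ (by positivity)
    refine k2.trans ((mul_le_mul h2 h3 n3 (by positivity)).trans (le_of_eq ?_))
    ring
  refine abs_le_of_sq_le_sq ?_ (by positivity)
  calc _ ≤ _ := k1
    _ ≤ a ^ 2 * (b * c) ^ 2 := mul_le_mul h1 k3 n0 (by positivity)
    _ = _ := by ring

/-- **A quadratic form against a function.** -/
lemma quad {W : (τ → ℝ) → ℝ} {W' : τ → (τ → ℝ) → ℝ} (eW : EG W) (pW : ∀ j, PD j W (W' j))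
    (eW' : ∀ j, EG (W' j)) (α β : τ → ℝ) :
    ∫ w, (∑ j, α j * w j) * ((∑ k, β k * w k) * (W w - ∫ z, W z ∂(gI τ))) ∂(gI τ) =
      ∑ j, ∑ k, α j * β k * ∫ w, w k * W' j w ∂(gI τ) := by
  set m := ∫ z, W z ∂(gI τ) with hm
  have eL : EG fun w : τ → ℝ => ∑ k, β k * w k := EG.sum _ fun k _ => (EG.coord k).const_mul _
  have pL : ∀ j, PD j (fun w : τ → ℝ => ∑ k, β k * w k) (fun _ => β j) := by
    intro j
    have h := pd_lin (fun _ k : τ => β k) j j
    exact h
  have ev : EG fun w => W w - m := eW.sub (EG.const m)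
  have e1 : ∀ w : τ → ℝ, (∑ j, α j * w j) * ((∑ k, β k * w k) * (W w - m)) =
      ∑ j, α j * (w j * ((∑ k, β k * w k) * (W w - m))) := by
    intro w
    rw [Finset.sum_mul]
    exact Finset.sum_congr rfl fun j _ => by ring
  simp only [e1]
  rw [integral_finsetSum _ fun j _ =>
    (((EG.coord j).mul (eL.mul ev)).const_mul (α j)).integrable]
  refine Finset.sum_congr rfl fun j _ => ?_
  rw [integral_const_mul]
  have p1 : PD j (fun w => (∑ k, β k * w k) * (W w - m))
      (fun w => β j * (W w - m) + (∑ k, β k * w k) * W' j w) := by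
    have h1 := (pL j).mul ((pW j).sub (PD.const m))
    refine h1.congr fun y => ?_
    simp only [sub_zero]
  have e2 := p1.stein (eL.mul ev) ((ev.const_mul (β j)).add (eL.mul (eW' j)))
  rw [e2, integral_add (ev.const_mul (β j)).integrable (eL.mul (eW' j)).integrable,
    integral_const_mul, integral_sub eW.integrable (integrable_const _), integral_const]
  simp only [probReal_univ, one_smul, ← hm, sub_self, mul_zero, zero_add, Finset.sum_mul]
  rw [integral_finsetSum _ fun k _ => (((EG.coord k).const_mul (β k)).mul (eW' j)).integrable,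
    Finset.mul_sum]
  refine Finset.sum_congr rfl fun k _ => ?_
  have e3 : ∀ w : τ → ℝ, β k * w k * W' j w = β k * (w k * W' j w) := fun w => by ring
  simp only [e3]
  rw [integral_const_mul]
  ring

/-- the `L⁴` Poincare inequality -/
lemma four_le {W : (τ → ℝ) → ℝ} {W' : τ → (τ → ℝ) → ℝ} (eW : EG W) (pW : ∀ j, PD j W (W' j))
    (eW' : ∀ j, EG (W' j)) :
    ∫ w, (W w - ∫ z, W z ∂(gI τ)) ^ 4 ∂(gI τ) ≤ 18 * ∫ w, (∑ j, W' j w ^ 2) ^ 2 ∂(gI τ) := by
  set m := ∫ z, W z ∂(gI τ) with hm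
  set v : (τ → ℝ) → ℝ := fun w => W w - m with hv
  set s : (τ → ℝ) → ℝ := fun w => ∑ j, W' j w ^ 2 with hs
  have ev : EG v := eW.sub (EG.const m)
  have es : EG s := EG.sum _ fun j _ => (eW' j).pow 2
  have pv : ∀ j, PD j v (W' j) := fun j => by
    have h := (pW j).sub (PD.const m)
    exact h.congr fun y => by simp
  have p2 : ∀ j, PD j (fun w => v w ^ 2) (fun w => 2 * (v w * W' j w)) := by
    intro j
    have h := (pv j).mul (pv j)
    have e : (fun w => v w ^ 2) = fun w => v w * v w := funext fun w => sq _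
    rw [e]
    exact h.congr fun y => by ring
  have h1 := cc_var_le_one (ev.pow 2) p2 fun j => (ev.mul (eW' j)).const_mul 2
  have h2 := cc_var_le_one eW pW eW'
  rw [← hm] at h2
  set V2 := ∫ w, v w ^ 2 ∂(gI τ) with hV2
  have a1 : ∫ w, (v w ^ 2 - V2) ^ 2 ∂(gI τ) = ∫ w, v w ^ 4 ∂(gI τ) - V2 ^ 2 := by
    have e : ∀ w, (v w ^ 2 - V2) ^ 2 = v w ^ 4 + (V2 ^ 2 - 2 * V2 * v w ^ 2) := fun w => by ring
    simp only [e]
    have i2 : Integrable (fun w => V2 ^ 2 - 2 * V2 * v w ^ 2) (gI τ) :=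
      ((EG.const (V2 ^ 2)).sub ((ev.pow 2).const_mul (2 * V2))).integrable
    rw [integral_add (ev.pow 4).integrable i2, integral_sub (integrable_const _)
      ((ev.pow 2).const_mul _).integrable, integral_const_mul, ← hV2]
    simp
    ring
  have a2 : ∑ j, ∫ w, (2 * (v w * W' j w)) ^ 2 ∂(gI τ) = ∫ w, 4 * (v w ^ 2 * s w) ∂(gI τ) := by
    rw [← integral_finsetSum _ fun j _ => (((ev.mul (eW' j)).const_mul 2).pow 2).integrable]
    congr 1
    funext w
    rw [hs]
    simp only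
    rw [Finset.mul_sum, Finset.mul_sum]
    exact Finset.sum_congr rfl fun j _ => by ring
  have a3 : ∫ w, 4 * (v w ^ 2 * s w) ∂(gI τ) ≤ ∫ w, (1 / 2 * v w ^ 4 + 8 * s w ^ 2) ∂(gI τ) := by
    refine integral_mono (((ev.pow 2).mul es).const_mul 4).integrable
      (((ev.pow 4).const_mul (1 / 2)).add ((es.pow 2).const_mul 8)).integrable fun w => ?_
    simp only
    nlinarith [sq_nonneg (v w ^ 2 - 4 * s w)]
  rw [integral_add ((ev.pow 4).const_mul (1 / 2)).integrable
    ((es.pow 2).const_mul 8).integrable] at a3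
  have a4 : V2 ≤ ∫ w, s w ∂(gI τ) := by
    rw [hV2]
    refine h2.trans (le_of_eq ?_)
    rw [← integral_finsetSum _ fun j _ => ((eW' j).pow 2).integrable]
  have a5 : (∫ w, s w ∂(gI τ)) ^ 2 ≤ ∫ w, s w ^ 2 ∂(gI τ) := by
    have h := cs es (EG.const 1)
    simpa using h
  have a6 : 0 ≤ V2 := integral_nonneg fun _ => sq_nonneg _
  have a7 : V2 ^ 2 ≤ ∫ w, s w ^ 2 ∂(gI τ) := (pow_le_pow_left₀ a6 a4 2).trans a5
  rw [a1, a2] at h1
  simp only [integral_const_mul] at a3 h1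
  show ∫ w, v w ^ 4 ∂(gI τ) ≤ 18 * ∫ w, s w ^ 2 ∂(gI τ)
  linarith

/-- two linear forms -/
lemma lin_lin (α β : τ → ℝ) :
    ∫ w, (∑ j, α j * w j) * (∑ k, β k * w k) ∂(gI τ) = ∑ j, α j * β j := by
  have e1 : ∀ w : τ → ℝ, (∑ j, α j * w j) * (∑ k, β k * w k) =
      ∑ j, ∑ k, α j * β k * (w j * w k) := by
    intro w
    rw [Finset.sum_mul_sum]
    exact Finset.sum_congr rfl fun j _ => Finset.sum_congr rfl fun k _ => by ring
  simp only [e1]
  rw [integral_finsetSum _ fun j _ => (EG.sum _ fun k _ =>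
    ((EG.coord j).mul (EG.coord k)).const_mul (α j * β k)).integrable]
  refine Finset.sum_congr rfl fun j _ => ?_
  rw [integral_finsetSum _ fun k _ => (((EG.coord j).mul (EG.coord k)).const_mul
    (α j * β k)).integrable]
  simp only [integral_const_mul, H546.int_coord]
  simp

/-- fourth moments of a vector of linear forms -/
lemma lin4 {ι : Type} [Fintype ι] (L : ι → τ → ℝ) :
    ∫ w, (∑ i, (∑ j, L i j * w j) ^ 2) ^ 2 ∂(gI τ) ≤ 3 * (∑ i, ∑ j, L i j ^ 2) ^ 2 := by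
  set l : ι → (τ → ℝ) → ℝ := fun i w => ∑ j, L i j * w j with hl
  have el : ∀ i, EG (l i) := fun i => EG.sum _ fun k _ => (EG.coord k).const_mul _
  have pl : ∀ i j, PD j (l i) (fun _ => L i j) := fun i j => pd_lin (fun _ k : τ => L i k) j j
  have h2 : ∀ i, ∫ w, l i w ^ 2 ∂(gI τ) = ∑ j, L i j ^ 2 := by
    intro i
    have h := lin_lin (L i) (L i)
    simp only [← sq] at h
    exact h
  have key : ∀ i k, ∫ w, l i w ^ 2 * l k w ^ 2 ∂(gI τ) ≤
      3 * ((∑ j, L i j ^ 2) * ∑ j, L k j ^ 2) := by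
    intro i k
    have p2 : ∀ j, PD j (fun w => l k w ^ 2) (fun w => 2 * L k j * l k w) := by
      intro j
      have h := (pl k j).mul (pl k j)
      have e : (fun w => l k w ^ 2) = fun w => l k w * l k w := funext fun w => sq _
      rw [e]
      exact h.congr fun y => by ring
    have q := quad ((el k).pow 2) p2 (fun j => (el k).const_mul _) (L i) (L i)
    have e1 : ∀ j r, ∫ w, w r * (2 * L k j * l k w) ∂(gI τ) = 2 * L k j * L k r := by
      intro j r
      have e2 : ∀ w : τ → ℝ, w r * (2 * L k j * l k w) = 2 * L k j * (w r * l k w) := fun w => by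
        ring
      simp only [e2]
      rw [integral_const_mul, (pl k r).stein (el k) (EG.const _), integral_const]
      simp
    simp only [e1] at q
    rw [h2 k] at q
    have e3 : ∑ j, ∑ r, L i j * L i r * (2 * L k j * L k r) = 2 * (∑ j, L i j * L k j) ^ 2 := by
      rw [sq, Finset.sum_mul_sum, Finset.mul_sum]
      refine Finset.sum_congr rfl fun j _ => ?_
      rw [Finset.mul_sum]
      exact Finset.sum_congr rfl fun r _ => by ring
    rw [e3] at q
    have e4 : ∫ w, (∑ j, L i j * w j) * ((∑ k, L i k * w k) * (l k w ^ 2 - ∑ j, L k j ^ 2)) ∂(gI τ)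
        = ∫ w, l i w ^ 2 * l k w ^ 2 ∂(gI τ) - (∑ j, L k j ^ 2) * ∑ j, L i j ^ 2 := by
      rw [← h2 i, ← integral_const_mul, ← integral_sub (((el i).pow 2).mul ((el k).pow 2)).integrable
        (((el i).pow 2).const_mul _).integrable]
      congr 1
      funext w
      rw [hl]
      simp only
      ring
    rw [e4] at q
    have e5 : (∑ j, L i j * L k j) ^ 2 ≤ (∑ j, L i j ^ 2) * ∑ j, L k j ^ 2 :=
      Finset.sum_mul_sq_le_sq_mul_sq _ _ _
    linarith
  have e1 : ∀ w, (∑ i, l i w ^ 2) ^ 2 = ∑ i, ∑ k, l i w ^ 2 * l k w ^ 2 := by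
    intro w
    rw [sq, Finset.sum_mul_sum]
  show ∫ w, (∑ i, l i w ^ 2) ^ 2 ∂(gI τ) ≤ _
  simp only [e1]
  rw [integral_finsetSum _ fun i _ => (EG.sum _ fun k _ =>
    ((el i).pow 2).mul ((el k).pow 2)).integrable]
  rw [sq (∑ i, ∑ j, L i j ^ 2), Finset.sum_mul_sum, Finset.mul_sum]
  refine Finset.sum_le_sum fun i _ => ?_
  rw [integral_finsetSum _ fun k _ => (((el i).pow 2).mul ((el k).pow 2)).integrable,
    Finset.mul_sum]
  exact Finset.sum_le_sum fun k _ => key i k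

end Vale.Agent.P146.U.H379
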